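import Vale.Agent.P195.H231.Q.All
import Vale.Agent.P195L43.Main

/-!
# P195: the Auslander-Reiten conjecture for Artin algebras is false, word for word
-/

open CategoryTheory Vale.Agent.P195L43

universe u

/-- The conjecture as posed is false; the counterexamples; the two forms of (AR) agree; `Ext` may be
taken among all or among finitely generated modules; finite-dimensional algebras are Artin
algebras; projective modules satisfy (AR). -/
theorem Vale.Agent.Results.P195.AArtinAlgebra.result :
    ¬ Conjecture.{u} ∧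
    (∀ (K : Type u) [Field K], (∀ F : Subfield K, Finite F → ¬ Algebra.IsAlgebraic F K) →
      ∃ (R : Type u) (_ : Ring R) (_ : Algebra K R) (M : Type u) (_ : AddCommGroup M)
        (_ : Module R M), Module.Finite K R ∧ IsArtinAlgebra R ∧ Module.Finite R M ∧ AR R M ∧
          ¬ Module.Projective R M) ∧
    ∀ (R : Type u) [Ring R],
      (∀ (K : Type u) [Field K] [Algebra K R], Module.Finite K R → IsArtinAlgebra R) ∧
      (IsArtinAlgebra R → IsNoetherianRing R) ∧
      (∀ _ : IsNoetherianRing R, HasExt.{u} (FGModuleCat.{u} R)) ∧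
      ∀ (M : Type u) [AddCommGroup M] [Module R M],
        (AR R M ↔ ExtVanish (ModuleCat.of R M) (ModuleCat.of R M) ∧
          ExtVanish (ModuleCat.of R M) (ModuleCat.of R R)) ∧
        (Module.Projective R M → AR R M) ∧
        ∀ [IsNoetherianRing R] [HasExt.{u} (FGModuleCat.{u} R)] [Module.Finite R M],
          ARfg R M ↔ AR R M := by
  have key : ∀ (K : Type u) [Field K], (∀ F : Subfield K, Finite F → ¬ Algebra.IsAlgebraic F K) →
      ∃ (R : Type u) (_ : Ring R) (_ : Algebra K R) (M : Type u) (_ : AddCommGroup M)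
        (_ : Module R M), Module.Finite K R ∧ IsArtinAlgebra R ∧ Module.Finite R M ∧ AR R M ∧
          ¬ Module.Projective R M := fun K _ hK => by
    obtain ⟨t, h0, ht⟩ := P195.H231.exists_order hK
    obtain ⟨hq⟩ := P195.H231.exists_qpar h0 ht
    obtain ⟨A, r, a, M, g, m, h1, h2, h3, h4, h5⟩ := P195Q.Van.main K
    exact ⟨A, r, a, M, g, m, h1, artin_of_finite K h1, h2, ar_iff.2 ⟨h4, h5⟩, h3⟩
  refine ⟨fun h => ?_, key, fun R _ => ⟨artin_of_finite, IsArtinAlgebra.noeth, fun _ => hasExt,
    fun M _ _ => ⟨ar_iff, ar_of_projective, arfg_iff⟩⟩⟩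
  obtain ⟨K, _, -, hK⟩ := P195.H231.exists_field.{u} 2 Nat.prime_two
  obtain ⟨R, _, _, M, _, _, -, h1, h2, h3, h4⟩ := key K hK
  exact h4 (h R M h1 h2 h3)
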